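import Vale.Agent.P231.Final
import Vale.Agent.P231.StmtB

namespace Vale.Agent.Results.P231.A_volrigid

open scoped ContDiff Manifold ENNReal
open Vale.Agent.P255 Vale.Agent.P234 Vale.Agent.P219.St Vale.Agent.P231 Set

theorem result {m : ℕ} {M : Type*} [TopologicalSpace M] [ChartedSpace (Euc (m + 1)) M]
    [IsManifold 𝓘(ℝ, Euc (m + 1)) ∞ M] [T2Space M] [CompactSpace M] [ConnectedSpace M]
    (g : Metric (Euc (m + 1)) M) (hB : Blaschke g) (D : ℝ) (hD : diam g = ENNReal.ofReal D)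
    (k : ℕ) (hk : NullLe g D k) :
    AllPeriodic g (2 * D) ∧ ENNReal.ofReal (modelVol m k D) ≤ rmeas g (m + 1) univ ∧
      (rmeas g (m + 1) univ ≤ ENNReal.ofReal (modelVol m k D) → IsSymmetric g) :=
  final g hB D hD k hk

end Vale.Agent.Results.P231.A_volrigid
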